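import Mathlib

open Finset

namespace Vale.Agent.Results.P334.GreedyAspect

/-- distance from a client `j` to a set `S` of open facilities (minimum over `S`) -/
noncomputable def distTo {X : Type} [MetricSpace X] (S : Finset X) (j : X) : ℝ :=
  if h : S.Nonempty then S.inf' h (fun i => dist j i) else 0

/-- the k-median cost of a set `S` of open facilities for the client set `J` -/
noncomputable def cost {X : Type} [MetricSpace X] (J S : Finset X) : ℝ :=
  ∑ j ∈ J, distTo S j

/-- feasible solutions: nonempty subsets of the facility set `F` of size at most `k` -/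
def Feasible {X : Type} (F : Finset X) (k : ℕ) (S : Finset X) : Prop :=
  S ⊆ F ∧ 1 ≤ S.card ∧ S.card ≤ k

/-- `opt` is the optimum value `OPT_k` of the instance `(J, F, k)` -/
def IsOpt {X : Type} [MetricSpace X] (J F : Finset X) (k : ℕ) (opt : ℝ) : Prop :=
  (∃ S, Feasible F k S ∧ cost J S = opt) ∧ ∀ S, Feasible F k S → opt ≤ cost J S

/-- a run of the greedy algorithm: start with no open facility and repeatedly open a facility
of `F` whose opening gives the smallest cost (ties broken arbitrarily) -/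
def GreedyRun {X : Type} [MetricSpace X] [DecidableEq X] (J F : Finset X)
    (S : ℕ → Finset X) : Prop :=
  S 0 = ∅ ∧ ∀ t, ∃ c ∈ F, S (t + 1) = insert c (S t) ∧
    ∀ i ∈ F, cost J (insert c (S t)) ≤ cost J (insert i (S t))

/-- distance from client `j` to the farthest candidate facility -/
noncomputable def farDist {X : Type} [MetricSpace X] (F : Finset X) (hF : F.Nonempty)
    (j : X) : ℝ :=
  F.sup' hF (fun i => dist j i)

section lemmas
set_option linter.unusedSectionVars false
variable {X : Type} [MetricSpace X] [DecidableEq X]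

lemma distTo_nonneg (S : Finset X) (j : X) : 0 ≤ distTo S j := by
  unfold distTo
  split_ifs with h
  · exact (Finset.le_inf'_iff h _).2 (fun i _ => dist_nonneg)
  · exact le_refl _

lemma distTo_le {S : Finset X} {i : X} (hi : i ∈ S) (j : X) : distTo S j ≤ dist j i := by
  unfold distTo
  rw [dif_pos ⟨i, hi⟩]
  exact Finset.inf'_le _ hi

lemma exists_distTo {S : Finset X} (hS : S.Nonempty) (j : X) :
    ∃ i ∈ S, distTo S j = dist j i := by
  unfold distTo
  rw [dif_pos hS]
  exact Finset.exists_mem_eq_inf' hS _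

lemma distTo_insert_le {S : Finset X} (hS : S.Nonempty) (i j : X) :
    distTo (insert i S) j ≤ distTo S j := by
  obtain ⟨a, ha, hEq⟩ := exists_distTo hS j
  rw [hEq]
  exact distTo_le (Finset.mem_insert_of_mem ha) j

/-- the core averaging step, from a nonempty current set -/
lemma step_nonempty (J S O : Finset X) (hS : S.Nonempty) (hO : O.Nonempty) :
    cost J S - cost J O ≤ ∑ i ∈ O, (cost J S - cost J (insert i S)) := by
  have h1 : ∑ i ∈ O, (cost J S - cost J (insert i S)) =
      ∑ j ∈ J, ∑ i ∈ O, (distTo S j - distTo (insert i S) j) := by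
    rw [Finset.sum_comm]
    refine Finset.sum_congr rfl (fun i _ => ?_)
    simp only [cost, Finset.sum_sub_distrib]
  rw [h1]
  unfold cost
  rw [← Finset.sum_sub_distrib]
  refine Finset.sum_le_sum (fun j _ => ?_)
  obtain ⟨a, ha, hEq⟩ := exists_distTo hO j
  have h2 : distTo S j - distTo (insert a S) j ≤
      ∑ i ∈ O, (distTo S j - distTo (insert i S) j) :=
    Finset.single_le_sum (f := fun i => distTo S j - distTo (insert i S) j)
      (fun i _ => sub_nonneg.2 (distTo_insert_le hS i j)) ha
  have h3 : distTo (insert a S) j ≤ dist j a := distTo_le (Finset.mem_insert_self a S) j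
  rw [hEq]
  linarith

lemma distTo_singleton (i j : X) : distTo {i} j = dist j i := by
  obtain ⟨a, ha, hEq⟩ := exists_distTo (Finset.singleton_nonempty i) j
  rw [hEq, Finset.mem_singleton.1 ha]

lemma le_farDist {F : Finset X} (hF : F.Nonempty) {i : X} (hi : i ∈ F) (j : X) :
    dist j i ≤ farDist F hF j := Finset.le_sup' (fun i => dist j i) hi

/-- the core averaging step, from the empty set -/
lemma step_empty (J F O : Finset X) (hF : F.Nonempty) (hO : O.Nonempty) (hOF : O ⊆ F) :
    (∑ j ∈ J, farDist F hF j) - cost J O ≤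
      ∑ i ∈ O, ((∑ j ∈ J, farDist F hF j) - cost J {i}) := by
  have h1 : ∑ i ∈ O, ((∑ j ∈ J, farDist F hF j) - cost J {i}) =
      ∑ j ∈ J, ∑ i ∈ O, (farDist F hF j - dist j i) := by
    rw [Finset.sum_comm]
    refine Finset.sum_congr rfl (fun i _ => ?_)
    simp only [cost, Finset.sum_sub_distrib, distTo_singleton]
  rw [h1]
  unfold cost
  rw [← Finset.sum_sub_distrib]
  refine Finset.sum_le_sum (fun j _ => ?_)
  obtain ⟨a, ha, hEq⟩ := exists_distTo hO j
  have h2 : farDist F hF j - dist j a ≤ ∑ i ∈ O, (farDist F hF j - dist j i) :=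
    Finset.single_le_sum (f := fun i => farDist F hF j - dist j i)
      (fun i hi => sub_nonneg.2 (le_farDist hF (hOF hi) j)) ha
  rw [hEq]
  exact h2

/-- from an averaging bound to a one-step bound -/
lemma avg_step (O : Finset X) (k : ℕ) (hOk : O.card ≤ k) (hO : O.Nonempty)
    (c o : ℝ) (g : X → ℝ) (m : ℝ) (hm : ∀ i ∈ O, m ≤ g i) (hmc : m ≤ c)
    (hav : c - o ≤ ∑ i ∈ O, (c - g i)) : m - o ≤ (1 - 1 / (k : ℝ)) * (c - o) ∨ m ≤ o := by
  by_cases hco : c ≤ o
  · right
    exact le_trans hmc hco
  left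
  push Not at hco
  have hkpos : 0 < (k : ℝ) := by
    have : 0 < O.card := hO.card_pos
    exact_mod_cast lt_of_lt_of_le this hOk
  have h1 : ∑ i ∈ O, (c - g i) ≤ ∑ _i ∈ O, (c - m) :=
    Finset.sum_le_sum (fun i hi => by linarith [hm i hi])
  rw [Finset.sum_const, nsmul_eq_mul] at h1
  have h2 : (O.card : ℝ) * (c - m) ≤ (k : ℝ) * (c - m) :=
    mul_le_mul_of_nonneg_right (by exact_mod_cast hOk) (by linarith)
  have h3 : c - o ≤ (k : ℝ) * (c - m) := by linarith
  have h4 : (c - o) / k ≤ c - m := by
    rw [div_le_iff₀ hkpos]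
    linarith
  have h5 : (1 - 1 / (k : ℝ)) * (c - o) = (c - o) - (c - o) / k := by
    field_simp
  rw [h5]
  linarith

end lemmas

theorem main {X : Type} [MetricSpace X] [DecidableEq X] (J F : Finset X) (hF : F.Nonempty)
    (k : ℕ) (hk : 1 ≤ k) (S : ℕ → Finset X) (hS : GreedyRun J F S) (O : Finset X)
    (hO : Feasible F k O) :
    Feasible F k (S k) ∧
    cost J (S k) ≤ cost J O + Real.exp (-1) * ((∑ j ∈ J, farDist F hF j) - cost J O) := by
  obtain ⟨h0, hstep⟩ := hS
  obtain ⟨hOF, hO1, hOk⟩ := hO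
  have hOne : O.Nonempty := Finset.card_pos.1 hO1
  have hSF : ∀ t, S t ⊆ F := by
    intro t
    induction t with
    | zero => rw [h0]; exact Finset.empty_subset _
    | succ t ih =>
      obtain ⟨c, hc, hEq, _⟩ := hstep t
      rw [hEq]
      exact Finset.insert_subset hc ih
  have hScard : ∀ t, (S t).card ≤ t := by
    intro t
    induction t with
    | zero => rw [h0]; simp
    | succ t ih =>
      obtain ⟨c, hc, hEq, _⟩ := hstep t
      rw [hEq]
      exact le_trans (Finset.card_insert_le _ _) (by omega)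
  have hSne : ∀ t, (S (t + 1)).Nonempty := by
    intro t
    obtain ⟨c, hc, hEq, _⟩ := hstep t
    rw [hEq]
    exact Finset.insert_nonempty _ _
  set C0 : ℝ := ∑ j ∈ J, farDist F hF j with hC0
  set o : ℝ := cost J O with ho
  have hoC0 : o ≤ C0 := by
    rw [ho, hC0]
    unfold cost
    refine Finset.sum_le_sum (fun j _ => ?_)
    obtain ⟨a, ha, hEq⟩ := exists_distTo hOne j
    rw [hEq]
    exact le_farDist hF (hOF ha) j
  have hkpos : 0 < (k : ℝ) := by exact_mod_cast hk
  have hfac0 : 0 ≤ 1 - 1 / (k : ℝ) := by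
    have : 1 / (k : ℝ) ≤ 1 := by
      rw [div_le_one hkpos]
      exact_mod_cast hk
    linarith
  have hmain : ∀ t, cost J (S (t + 1)) - o ≤ (1 - 1 / (k : ℝ)) ^ (t + 1) * (C0 - o) := by
    intro t
    induction t with
    | zero =>
      obtain ⟨c, hc, hEq, hmin⟩ := hstep 0
      rw [h0] at hEq hmin
      have hmin' : ∀ i ∈ O, cost J (S 1) ≤ cost J {i} := by
        intro i hi
        have := hmin i (hOF hi)
        simp only [insert_empty_eq] at this hEq
        rw [show S 1 = {c} from hEq]
        exact this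
      have hle : cost J (S 1) ≤ C0 := by
        obtain ⟨a, ha⟩ := hOne
        refine le_trans (hmin' a ha) ?_
        rw [hC0]
        unfold cost
        refine Finset.sum_le_sum (fun j _ => ?_)
        rw [distTo_singleton]
        exact le_farDist hF (hOF ha) j
      rcases avg_step O k hOk hOne C0 o (fun i => cost J {i}) (cost J (S 1)) hmin' hle
        (step_empty J F O hF hOne hOF) with h | h
      · simpa using h
      · have : 0 ≤ (1 - 1 / (k : ℝ)) ^ (0 + 1) * (C0 - o) :=
          mul_nonneg (pow_nonneg hfac0 _) (by linarith)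
        have h' : cost J (S (0 + 1)) ≤ o := h
        linarith
    | succ t ih =>
      obtain ⟨c, hc, hEq, hmin⟩ := hstep (t + 1)
      have hmin' : ∀ i ∈ O, cost J (S (t + 1 + 1)) ≤ cost J (insert i (S (t + 1))) := by
        intro i hi
        rw [hEq]
        exact hmin i (hOF hi)
      have hle : cost J (S (t + 1 + 1)) ≤ cost J (S (t + 1)) := by
        rw [hEq]
        unfold cost
        exact Finset.sum_le_sum (fun j _ => distTo_insert_le (hSne t) c j)
      rcases avg_step O k hOk hOne (cost J (S (t + 1))) o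
        (fun i => cost J (insert i (S (t + 1)))) (cost J (S (t + 1 + 1))) hmin' hle
        (step_nonempty J (S (t + 1)) O (hSne t) hOne) with h | h
      · refine le_trans h ?_
        rw [pow_succ' (1 - 1 / (k : ℝ)) (t + 1), mul_assoc]
        exact mul_le_mul_of_nonneg_left ih hfac0
      · have : 0 ≤ (1 - 1 / (k : ℝ)) ^ (t + 1 + 1) * (C0 - o) :=
          mul_nonneg (pow_nonneg hfac0 _) (by linarith)
        linarith
  obtain ⟨t, rfl⟩ : ∃ t, k = t + 1 := ⟨k - 1, by omega⟩
  refine ⟨⟨hSF _, (hSne t).card_pos, hScard _⟩, ?_⟩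
  have hexp : (1 - 1 / ((t + 1 : ℕ) : ℝ)) ^ (t + 1) ≤ Real.exp (-1) := by
    have h1 : 1 - 1 / ((t + 1 : ℕ) : ℝ) ≤ Real.exp (-(1 / ((t + 1 : ℕ) : ℝ))) := by
      have := Real.add_one_le_exp (-(1 / ((t + 1 : ℕ) : ℝ)))
      linarith
    have h2 := pow_le_pow_left₀ hfac0 h1 (t + 1)
    rw [← Real.exp_nat_mul] at h2
    have h3 : ((t + 1 : ℕ) : ℝ) * -(1 / ((t + 1 : ℕ) : ℝ)) = -1 := by
      field_simp
    rw [h3] at h2
    exact h2
  have := hmain t
  have h2 : (1 - 1 / ((t + 1 : ℕ) : ℝ)) ^ (t + 1) * (C0 - o) ≤ Real.exp (-1) * (C0 - o) :=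
    mul_le_mul_of_nonneg_right hexp (by linarith)
  linarith

lemma exists_run {X : Type} [MetricSpace X] [DecidableEq X] (J F : Finset X)
    (hF : F.Nonempty) : ∃ S, GreedyRun J F S := by
  have hch : ∀ T : Finset X, ∃ c ∈ F, ∀ i ∈ F, cost J (insert c T) ≤ cost J (insert i T) :=
    fun T => Finset.exists_min_image F (fun i => cost J (insert i T)) hF
  choose f hfF hfmin using hch
  refine ⟨fun n => Nat.rec ∅ (fun _ T => insert (f T) T) n, rfl, fun t => ?_⟩
  exact ⟨f _, hfF _, rfl, hfmin _⟩

/-- Greedy for metric k-median. On every instance, each run of the greedy algorithm opens at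
most `k` facilities at cost at most `(1 - 1/e) OPT_k + (1/e) * (sum of farthest distances)`.
Hence it is a `1 + (L - 1)/e` approximation on instances whose client-facility distances all
lie in an interval `[r, L r]`; this is `1 + 2/e` for `L = 3` and is below `2` for
every `L < 1 + e`. -/
theorem result {X : Type} [MetricSpace X] [DecidableEq X] (J F : Finset X)
    (hF : F.Nonempty) (k : ℕ) (hk : 1 ≤ k) (opt : ℝ) (hopt : IsOpt J F k opt) :
    (∃ S, GreedyRun J F S) ∧
    ∀ S, GreedyRun J F S →
      Feasible F k (S k) ∧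
      cost J (S k) ≤
        (1 - Real.exp (-1)) * opt + Real.exp (-1) * ∑ j ∈ J, farDist F hF j ∧
      ∀ r L : ℝ, 0 < r → (∀ j ∈ J, ∀ i ∈ F, r ≤ dist j i ∧ dist j i ≤ L * r) →
        cost J (S k) ≤ (1 + (L - 1) * Real.exp (-1)) * opt ∧
        (L ≤ 3 → cost J (S k) ≤ (1 + 2 * Real.exp (-1)) * opt) ∧
        (L < 1 + Real.exp 1 → 1 + (L - 1) * Real.exp (-1) < 2) := by
  refine ⟨exists_run J F hF, fun S hS => ?_⟩
  obtain ⟨⟨O, hO, hOopt⟩, _⟩ := hopt
  obtain ⟨hfeas, hbound⟩ := main J F hF k hk S hS O hO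
  rw [hOopt] at hbound
  have hb : cost J (S k) ≤
      (1 - Real.exp (-1)) * opt + Real.exp (-1) * ∑ j ∈ J, farDist F hF j := by
    linarith
  have hE : 0 < Real.exp (-1) := Real.exp_pos _
  refine ⟨hfeas, hb, fun r L hr hd => ?_⟩
  have hOne : O.Nonempty := Finset.card_pos.1 hO.2.1
  have hopt_lower : r * J.card ≤ opt := by
    rw [← hOopt]
    unfold cost
    have : ∑ _j ∈ J, r ≤ ∑ j ∈ J, distTo O j := by
      refine Finset.sum_le_sum (fun j hj => ?_)
      obtain ⟨a, ha, hEq⟩ := exists_distTo hOne j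
      rw [hEq]
      exact (hd j hj a (hO.1 ha)).1
    rw [Finset.sum_const, nsmul_eq_mul] at this
    linarith
  have hfar : ∑ j ∈ J, farDist F hF j ≤ L * r * J.card := by
    have : ∑ j ∈ J, farDist F hF j ≤ ∑ _j ∈ J, L * r := by
      refine Finset.sum_le_sum (fun j hj => ?_)
      unfold farDist
      rw [Finset.sup'_le_iff]
      intro i hi
      exact (hd j hj i hi).2
    rw [Finset.sum_const, nsmul_eq_mul] at this
    linarith
  have hopt0 : 0 ≤ opt := le_trans (by positivity) hopt_lower
  have hmainL : cost J (S k) ≤ (1 + (L - 1) * Real.exp (-1)) * opt := by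
    rcases J.eq_empty_or_nonempty with hJ | ⟨j0, hj0⟩
    · subst hJ
      have h1 : cost (∅ : Finset X) (S k) = 0 := by simp [cost]
      have h2 : opt = 0 := by rw [← hOopt]; simp [cost]
      rw [h1, h2]
      simp
    · have hL1 : 1 ≤ L := by
        obtain ⟨i0, hi0⟩ := hF
        have := hd j0 hj0 i0 hi0
        have h3 : 1 * r ≤ L * r := by linarith [this.1, this.2]
        exact le_of_mul_le_mul_right h3 hr
      have h4 : L * r * J.card ≤ L * opt := by
        have := mul_le_mul_of_nonneg_left hopt_lower (by linarith : (0:ℝ) ≤ L)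
        linarith
      have h5 : Real.exp (-1) * ∑ j ∈ J, farDist F hF j ≤ Real.exp (-1) * (L * opt) :=
        mul_le_mul_of_nonneg_left (le_trans hfar h4) hE.le
      nlinarith
  refine ⟨hmainL, fun hL3 => ?_, fun hLe => ?_⟩
  · refine le_trans hmainL ?_
    refine mul_le_mul_of_nonneg_right ?_ hopt0
    nlinarith
  · have h6 : Real.exp (-1) * Real.exp 1 = 1 := by
      rw [← Real.exp_add]; simp
    nlinarith

end Vale.Agent.Results.P334.GreedyAspect
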