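import Mathlib

open Finset

namespace Vale.Agent.Results.P334.GreedyAugment

/-- distance from a client `j` to a set `S` of open facilities (minimum over `S`) -/
noncomputable def distTo {X : Type} [MetricSpace X] (S : Finset X) (j : X) : ℝ :=
  if h : S.Nonempty then S.inf' h (fun i => dist j i) else 0

/-- the k-median cost of a set `S` of open facilities for the client set `J` -/
noncomputable def cost {X : Type} [MetricSpace X] (J S : Finset X) : ℝ :=
  ∑ j ∈ J, distTo S j

/-- feasible solutions: nonempty subsets of the facility set `F` of size at most `k` -/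
def Feasible {X : Type} (F : Finset X) (k : ℕ) (S : Finset X) : Prop :=
  S ⊆ F ∧ 1 ≤ S.card ∧ S.card ≤ k

/-- `opt` is the optimum value `OPT_k` of the instance `(J, F, k)` -/
def IsOpt {X : Type} [MetricSpace X] (J F : Finset X) (k : ℕ) (opt : ℝ) : Prop :=
  (∃ S, Feasible F k S ∧ cost J S = opt) ∧ ∀ S, Feasible F k S → opt ≤ cost J S

/-- `S` is a run of greedy augmentation from `T`: `S 0 = T`, and each step opens a facility of
`F` whose opening gives the smallest cost (ties broken arbitrarily) -/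
def AugmentRun {X : Type} [MetricSpace X] [DecidableEq X] (J F T : Finset X)
    (S : ℕ → Finset X) : Prop :=
  S 0 = T ∧ ∀ t, ∃ c ∈ F, S (t + 1) = insert c (S t) ∧
    ∀ i ∈ F, cost J (insert c (S t)) ≤ cost J (insert i (S t))

section lemmas
set_option linter.unusedSectionVars false
variable {X : Type} [MetricSpace X]

lemma distTo_le {S : Finset X} {i : X} (hi : i ∈ S) (j : X) : distTo S j ≤ dist j i := by
  unfold distTo
  rw [dif_pos ⟨i, hi⟩]
  exact Finset.inf'_le _ hi

lemma distTo_nonneg (S : Finset X) (j : X) : 0 ≤ distTo S j := by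
  unfold distTo
  split_ifs with h
  · exact (Finset.le_inf'_iff h _).2 (fun i _ => dist_nonneg)
  · exact le_refl _

lemma exists_distTo {S : Finset X} (hS : S.Nonempty) (j : X) :
    ∃ i ∈ S, distTo S j = dist j i := by
  unfold distTo
  rw [dif_pos hS]
  exact Finset.exists_mem_eq_inf' hS _

lemma distTo_insert_le [DecidableEq X] {S : Finset X} (hS : S.Nonempty) (i j : X) :
    distTo (insert i S) j ≤ distTo S j := by
  obtain ⟨a, ha, hEq⟩ := exists_distTo hS j
  rw [hEq]
  exact distTo_le (Finset.mem_insert_of_mem ha) j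

lemma step_nonempty [DecidableEq X] (J S O : Finset X) (hS : S.Nonempty) (hO : O.Nonempty) :
    cost J S - cost J O ≤ ∑ i ∈ O, (cost J S - cost J (insert i S)) := by
  have h1 : ∑ i ∈ O, (cost J S - cost J (insert i S)) =
      ∑ j ∈ J, ∑ i ∈ O, (distTo S j - distTo (insert i S) j) := by
    rw [Finset.sum_comm]
    refine Finset.sum_congr rfl (fun i _ => ?_)
    simp only [cost, Finset.sum_sub_distrib]
  rw [h1]
  unfold cost
  rw [← Finset.sum_sub_distrib]
  refine Finset.sum_le_sum (fun j _ => ?_)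
  obtain ⟨a, ha, hEq⟩ := exists_distTo hO j
  have h2 : distTo S j - distTo (insert a S) j ≤
      ∑ i ∈ O, (distTo S j - distTo (insert i S) j) :=
    Finset.single_le_sum (f := fun i => distTo S j - distTo (insert i S) j)
      (fun i _ => sub_nonneg.2 (distTo_insert_le hS i j)) ha
  have h3 : distTo (insert a S) j ≤ dist j a := distTo_le (Finset.mem_insert_self a S) j
  rw [hEq]
  linarith

lemma avg_step (O : Finset X) (k : ℕ) (hOk : O.card ≤ k) (hO : O.Nonempty)
    (c o : ℝ) (g : X → ℝ) (m : ℝ) (hm : ∀ i ∈ O, m ≤ g i) (hmc : m ≤ c)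
    (hav : c - o ≤ ∑ i ∈ O, (c - g i)) : m - o ≤ (1 - 1 / (k : ℝ)) * (c - o) ∨ m ≤ o := by
  by_cases hco : c ≤ o
  · right
    exact le_trans hmc hco
  left
  push Not at hco
  have hkpos : 0 < (k : ℝ) := by
    have : 0 < O.card := hO.card_pos
    exact_mod_cast lt_of_lt_of_le this hOk
  have h1 : ∑ i ∈ O, (c - g i) ≤ ∑ _i ∈ O, (c - m) :=
    Finset.sum_le_sum (fun i hi => by linarith [hm i hi])
  rw [Finset.sum_const, nsmul_eq_mul] at h1
  have h2 : (O.card : ℝ) * (c - m) ≤ (k : ℝ) * (c - m) :=
    mul_le_mul_of_nonneg_right (by exact_mod_cast hOk) (by linarith)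
  have h3 : c - o ≤ (k : ℝ) * (c - m) := by linarith
  have h4 : (c - o) / k ≤ c - m := by
    rw [div_le_iff₀ hkpos]
    linarith
  have h5 : (1 - 1 / (k : ℝ)) * (c - o) = (c - o) - (c - o) / k := by
    field_simp
  rw [h5]
  linarith

end lemmas

theorem main {X : Type} [MetricSpace X] [DecidableEq X] (J F T : Finset X) (hT : T.Nonempty)
    (k : ℕ) (hk : 1 ≤ k) (S : ℕ → Finset X) (hS : AugmentRun J F T S) (O : Finset X)
    (hO : Feasible F k O) (t : ℕ) :
    cost J (S t) ≤ cost J O +
      Real.exp (-((t : ℝ) / k)) * max 0 (cost J T - cost J O) := by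
  obtain ⟨h0, hstep⟩ := hS
  obtain ⟨hOF, hO1, hOk⟩ := hO
  have hOne : O.Nonempty := Finset.card_pos.1 hO1
  have hSne : ∀ t, (S t).Nonempty := by
    intro t
    cases t with
    | zero => rw [h0]; exact hT
    | succ t =>
      obtain ⟨c, hc, hEq, _⟩ := hstep t
      rw [hEq]
      exact Finset.insert_nonempty _ _
  have hkpos : 0 < (k : ℝ) := by exact_mod_cast hk
  have hfac0 : 0 ≤ 1 - 1 / (k : ℝ) := by
    have : 1 / (k : ℝ) ≤ 1 := by
      rw [div_le_one hkpos]
      exact_mod_cast hk
    linarith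
  set M : ℝ := max 0 (cost J T - cost J O) with hM
  have hM0 : 0 ≤ M := le_max_left _ _
  have hmain : ∀ t, cost J (S t) - cost J O ≤ (1 - 1 / (k : ℝ)) ^ t * M := by
    intro t
    induction t with
    | zero =>
      have h9 : cost J T - cost J O ≤ M := le_max_right 0 (cost J T - cost J O)
      rw [h0, pow_zero, one_mul]
      exact h9
    | succ t ih =>
      obtain ⟨c, hc, hEq, hmin⟩ := hstep t
      have hmin' : ∀ i ∈ O, cost J (S (t + 1)) ≤ cost J (insert i (S t)) := by
        intro i hi
        rw [hEq]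
        exact hmin i (hOF hi)
      have hle : cost J (S (t + 1)) ≤ cost J (S t) := by
        rw [hEq]
        unfold cost
        exact Finset.sum_le_sum (fun j _ => distTo_insert_le (hSne t) c j)
      rcases avg_step O k hOk hOne (cost J (S t)) (cost J O)
        (fun i => cost J (insert i (S t))) (cost J (S (t + 1))) hmin' hle
        (step_nonempty J (S t) O (hSne t) hOne) with h | h
      · refine le_trans h ?_
        rw [pow_succ' (1 - 1 / (k : ℝ)) t, mul_assoc]
        exact mul_le_mul_of_nonneg_left ih hfac0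
      · have : 0 ≤ (1 - 1 / (k : ℝ)) ^ (t + 1) * M := mul_nonneg (pow_nonneg hfac0 _) hM0
        linarith
  have hexp : (1 - 1 / (k : ℝ)) ^ t ≤ Real.exp (-((t : ℝ) / k)) := by
    have h1 : 1 - 1 / (k : ℝ) ≤ Real.exp (-(1 / (k : ℝ))) := by
      have := Real.add_one_le_exp (-(1 / (k : ℝ)))
      linarith
    have h2 := pow_le_pow_left₀ hfac0 h1 t
    rw [← Real.exp_nat_mul] at h2
    have h3 : (t : ℝ) * -(1 / (k : ℝ)) = -((t : ℝ) / k) := by ring
    rw [h3] at h2
    exact h2
  have := hmain t
  have h2 : (1 - 1 / (k : ℝ)) ^ t * M ≤ Real.exp (-((t : ℝ) / k)) * M :=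
    mul_le_mul_of_nonneg_right hexp hM0
  linarith

lemma exists_run {X : Type} [MetricSpace X] [DecidableEq X] (J F T : Finset X)
    (hF : F.Nonempty) : ∃ S, AugmentRun J F T S := by
  have hch : ∀ T : Finset X, ∃ c ∈ F, ∀ i ∈ F, cost J (insert c T) ≤ cost J (insert i T) :=
    fun T => Finset.exists_min_image F (fun i => cost J (insert i T)) hF
  choose f hfF hfmin using hch
  refine ⟨fun n => Nat.rec T (fun _ T => insert (f T) T) n, rfl, fun t => ?_⟩
  exact ⟨f _, hfF _, rfl, hfmin _⟩

/-- Instances on which the factor `2` for metric k-median can be beaten. Let `k0 ≤ k`, let `T`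
be any solution with at most `k0` open facilities and cost at most `ρ * OPT_{k0}`, and open
`k - k0` further facilities greedily. The result is feasible for `k`. If
`OPT_{k0} ≤ β * OPT_k` and `1 ≤ ρ * β` then its cost is at most
`(1 + (ρ β - 1) e^{-(k-k0)/k}) OPT_k`, and this factor is below `2` as soon as
`ρ β < 1 + e^{(k-k0)/k}`. -/
theorem result {X : Type} [MetricSpace X] [DecidableEq X] (J F : Finset X)
    (k0 k : ℕ) (hk0 : 1 ≤ k0) (hk : k0 ≤ k) (hkF : k ≤ F.card) (opt0 opt ρ β : ℝ)
    (_hopt0 : IsOpt J F k0 opt0) (hopt : IsOpt J F k opt) (hβ : opt0 ≤ β * opt)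
    (hρ0 : 0 ≤ ρ) (hρβ : 1 ≤ ρ * β)
    (T : Finset X) (hT : Feasible F k0 T) (hTρ : cost J T ≤ ρ * opt0) :
    (∃ S, AugmentRun J F T S) ∧
    ∀ S, AugmentRun J F T S →
      Feasible F k (S (k - k0)) ∧
      cost J (S (k - k0)) ≤
        (1 + (ρ * β - 1) * Real.exp (-(((k : ℝ) - k0) / k))) * opt ∧
      (ρ * β < 1 + Real.exp (((k : ℝ) - k0) / k) →
        1 + (ρ * β - 1) * Real.exp (-(((k : ℝ) - k0) / k)) < 2) := by
  have hTne : T.Nonempty := Finset.card_pos.1 hT.2.1
  have hFne : F.Nonempty := by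
    rw [← Finset.card_pos]; omega
  refine ⟨exists_run J F T hFne, fun S hS => ?_⟩
  obtain ⟨⟨O, hO, hOopt⟩, _⟩ := hopt
  have hb := main J F T hTne k (by omega) S hS O hO (k - k0)
  rw [hOopt] at hb
  have hopt_nonneg : 0 ≤ opt := by
    rw [← hOopt]
    exact Finset.sum_nonneg (fun j _ => distTo_nonneg O j)
  have hcast : ((k - k0 : ℕ) : ℝ) = (k : ℝ) - k0 := by
    rw [Nat.cast_sub hk]
  rw [hcast] at hb
  refine ⟨?_, ?_, ?_⟩
  · obtain ⟨h0, hstep⟩ := hS
    have hSF : ∀ t, S t ⊆ F := by
      intro t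
      induction t with
      | zero => rw [h0]; exact hT.1
      | succ t ih =>
        obtain ⟨c, hc, hEq, _⟩ := hstep t
        rw [hEq]
        exact Finset.insert_subset hc ih
    have hScard : ∀ t, (S t).card ≤ k0 + t := by
      intro t
      induction t with
      | zero => rw [h0]; simpa using hT.2.2
      | succ t ih =>
        obtain ⟨c, hc, hEq, _⟩ := hstep t
        rw [hEq]
        exact le_trans (Finset.card_insert_le _ _) (by omega)
    have hSne : ∀ t, (S t).Nonempty := by
      intro t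
      cases t with
      | zero => rw [h0]; exact hTne
      | succ t =>
        obtain ⟨c, hc, hEq, _⟩ := hstep t
        rw [hEq]
        exact Finset.insert_nonempty _ _
    refine ⟨hSF _, (hSne _).card_pos, le_trans (hScard _) (by omega)⟩
  · have h1 : cost J T - opt ≤ (ρ * β - 1) * opt := by
      have : ρ * opt0 ≤ ρ * (β * opt) := mul_le_mul_of_nonneg_left hβ hρ0
      nlinarith
    have h2 : max 0 (cost J T - opt) ≤ (ρ * β - 1) * opt :=
      max_le (mul_nonneg (by linarith) hopt_nonneg) h1
    have h3 := mul_le_mul_of_nonneg_left h2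
      (Real.exp_pos (-(((k : ℝ) - k0) / k))).le
    nlinarith
  · intro hlt
    have h6 : Real.exp (-(((k : ℝ) - k0) / k)) * Real.exp (((k : ℝ) - k0) / k) = 1 := by
      rw [← Real.exp_add]; simp
    have h7 := Real.exp_pos (-(((k : ℝ) - k0) / k))
    nlinarith

end Vale.Agent.Results.P334.GreedyAugment
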